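import Vale.Agent.P297A41.Rows

/-!
# Maps given by homogeneous polynomials are locally given by sections
-/

open CategoryTheory AlgebraicGeometry MonoidalCategory MvPolynomial

namespace Vale.Agent.P297A

open Vale.Agent.P009S (VA ev cst)
open Vale.Agent.P009.AV (PP Bihom)

theorem poly_ev {X : Sch} {ρ : Type} (x : Pt X) (U : X.left.Opens) (h : P009S.pt x ∈ U)
    (s : ρ → Γ(X.left, U)) (p : MvPolynomial ρ ℂ) :
    ev x U h (eval₂ (cst X U) s p) = eval (fun j => ev x U h (s j)) p := by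
  rw [eval₂_comp_left]
  have : (ev x U h).comp (cst X U) = RingHom.id ℂ := RingHom.ext fun c => P009S.ev_cst x U h c
  rw [this]
  rfl

theorem poly_core {X : Sch} {ρ τ : Type} (q' : Pt X → PP ℂ τ) (P : Pt X) (W : X.left.Opens)
    (hW : P009S.pt P ∈ W) (u : ρ → Γ(X.left, W)) (F : τ → MvPolynomial ρ ℂ) (v : Pt X → ρ → ℂ)
    (hs : ∀ (P' : Pt X) (h : P009S.pt P' ∈ W), ∃ a : ℂ, a ≠ 0 ∧
      ∀ i, eval (v P') (F i) = a * eval (fun j => ev P' W h (u j)) (F i))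
    (h0 : ∃ i, eval (v P) (F i) ≠ 0)
    (h1 : ∀ P', (∃ i, eval (v P') (F i) ≠ 0) → ∃ c, ∀ i, eval (v P') (F i) = c * (q' P').rep i) :
    ∃ (W : X.left.Opens) (_ : P009S.pt P ∈ W) (u : τ → Γ(X.left, W)),
      ∀ (P' : Pt X) (h : P009S.pt P' ∈ W), ∃ c : ℂ, c ≠ 0 ∧
        ∀ j, (q' P').rep j = c * ev P' W h (u j) := by
  obtain ⟨i, hi⟩ := h0
  have hle := X.left.basicOpen_le (eval₂ (cst X W) u (F i))
  refine ⟨X.left.basicOpen (eval₂ (cst X W) u (F i)), ?_,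
    fun j => X.left.presheaf.map (homOfLE hle).op (eval₂ (cst X W) u (F j)), fun P' h => ?_⟩
  · obtain ⟨a, -, ha⟩ := hs P hW
    rw [← P009S.ev_ne_zero P W hW, poly_ev]
    rw [ha] at hi
    exact right_ne_zero_of_mul hi
  · obtain ⟨a, ha0, ha⟩ := hs P' (hle h)
    have h2 := (P009S.ev_ne_zero P' W (hle h) _).2 h
    rw [poly_ev] at h2
    have h3 : eval (v P') (F i) ≠ 0 := by
      rw [ha]
      exact mul_ne_zero ha0 h2
    obtain ⟨c, hc⟩ := h1 P' ⟨i, h3⟩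
    have hc0 : c ≠ 0 := by
      rw [hc] at h3
      exact left_ne_zero_of_mul h3
    refine ⟨a / c, div_ne_zero ha0 hc0, fun j => ?_⟩
    rw [P009S.ev_res P' hle h, poly_ev, div_mul_eq_mul_div, ← ha, hc, mul_div_cancel_left₀ _ hc0]

theorem poly_smul {σ : Type} [Fintype σ] {p : MvPolynomial σ ℂ} {d : ℕ} (hp : p.IsHomogeneous d)
    (c : ℂ) (a : σ → ℂ) : eval (fun j => c * a j) p = c ^ d * eval a p := by
  rw [eval_eq', eval_eq', Finset.mul_sum]
  refine Finset.sum_congr rfl fun m hm => ?_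
  have h1 : ∑ j, m j = d := by
    have := hp (mem_support_iff.1 hm)
    simpa [Finsupp.weight_apply, Finsupp.sum_fintype] using this
  simp only [mul_pow, Finset.prod_mul_distrib, Finset.prod_pow_eq_pow_sum, h1]
  ring

theorem poly_smul2 {σ : Type} [Fintype σ] {p : MvPolynomial (σ ⊕ σ) ℂ} {d e : ℕ}
    (hp : ∀ m ∈ p.support, ∑ j, m (Sum.inl j) = d ∧ ∑ j, m (Sum.inr j) = e)
    (c c' : ℂ) (a b : σ → ℂ) : eval (Sum.elim (fun j => c * a j) fun j => c' * b j) p =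
      c ^ d * c' ^ e * eval (Sum.elim a b) p := by
  rw [eval_eq', eval_eq', Finset.mul_sum]
  refine Finset.sum_congr rfl fun m hm => ?_
  simp only [Fintype.prod_sum_type, Sum.elim_inl, Sum.elim_inr, mul_pow, Finset.prod_mul_distrib,
    Finset.prod_pow_eq_pow_sum, (hp m hm).1, (hp m hm).2]
  ring

theorem poly : POLY := by
  intro X σ τ _ q q' hq H P
  obtain ⟨W, hW, u, hu⟩ := hq P
  obtain ⟨F, d, hF, h0, h1⟩ := H P
  refine poly_core q' P W hW u F (fun P => (q P).rep) (fun P' h => ?_) h0 h1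
  obtain ⟨c, hc, h2⟩ := hu P' h
  refine ⟨c ^ d, pow_ne_zero _ hc, fun i => ?_⟩
  rw [← poly_smul (hF i), ← funext h2]

theorem poly2 : POLY2 := by
  intro X σ _ q₁ q₂ q' hq₁ hq₂ H P
  obtain ⟨W₁, hW₁, u₁, hu₁⟩ := hq₁ P
  obtain ⟨W₂, hW₂, u₂, hu₂⟩ := hq₂ P
  obtain ⟨F, ⟨d, e, hF⟩, h0, h1⟩ := H P
  refine poly_core q' P (W₁ ⊓ W₂) ⟨hW₁, hW₂⟩
    (Sum.elim (fun j => X.left.presheaf.map (homOfLE inf_le_left).op (u₁ j))
      fun j => X.left.presheaf.map (homOfLE inf_le_right).op (u₂ j)) F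
    (fun P => Sum.elim (q₁ P).rep (q₂ P).rep) (fun P' h => ?_) h0 h1
  obtain ⟨c, hc, h2⟩ := hu₁ P' h.1
  obtain ⟨c', hc', h3⟩ := hu₂ P' h.2
  refine ⟨c ^ d * c' ^ e, mul_ne_zero (pow_ne_zero _ hc) (pow_ne_zero _ hc'), fun i => ?_⟩
  have h4 := poly_smul2 (hF i) c c' (fun j => ev P' W₁ h.1 (u₁ j)) fun j => ev P' W₂ h.2 (u₂ j)
  rw [← funext h2, ← funext h3] at h4
  rw [h4]
  refine congrArg (fun v => _ * eval v (F i)) (funext fun j => ?_)
  rcases j with j | j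
  · exact (P009S.ev_res P' inf_le_left h (u₁ j)).symm
  · exact (P009S.ev_res P' inf_le_right h (u₂ j)).symm

end Vale.Agent.P297A
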