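import Vale.Agent.P297A41.Rows
import Vale.Agent.P297L93.IntG

/-!
# Morphisms to the projective space
-/

open CategoryTheory AlgebraicGeometry MonoidalCategory

namespace Vale.Agent.P297A

open Vale.Agent.P297M (Pj str IsPoint)

theorem prj13 (hL : LIFT) (hV : VAP) (hP : PTS) : PRJ := by
  intro X _ _ ι _ q
  have hs : IsProper (str ι) := P297G93.isProper_proj _
  let Y : Sch := Over.mk (str ι)
  have : IsProper Y.hom := hs
  obtain ⟨D, e, he, h⟩ := hV Y ι (𝟙 (Pj ι))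
    (inferInstanceAs (IsClosedImmersion (𝟙 (Pj ι) : Pj ι ⟶ Pj ι))) (Category.id_comp _)
  obtain ⟨h1, h2, -⟩ := hP ι
  refine ⟨fun hq => ?_, ?_⟩
  · choose φ hφ using fun P => h1 (q P)
    have h3 : (fun P => e (φ P)) = q := funext fun P => h2 _ _ _ (h (φ P)) (hφ P)
    obtain ⟨f, hf⟩ := hL X Y ι ι D e he φ (h3 ▸ hq)
    refine ⟨f.left, Over.w f, fun x => ?_⟩
    have h4 := hφ x
    rw [← hf x] at h4
    exact h4
  · rintro ⟨g, hg, hx⟩
    let f : X ⟶ Y := Over.homMk g hg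
    have h3 : (fun P => e (P ≫ f)) = q := funext fun P => h2 _ _ _ (h (P ≫ f)) (hx P)
    exact h3 ▸ (loc_emb he).comp f

end Vale.Agent.P297A
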